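import Vale.Agent.Lib.P052.Inst

namespace Vale.Agent.Results.P052.Dim63

/-- Borsuk's conjecture fails in dimension 63: a finite subset of Euclidean 63-space of positive
diameter is not the union of 64 subsets of strictly smaller diameter. -/
theorem result : ∃ Y : Set (EuclideanSpace ℝ (Fin 63)), Y.Finite ∧ 0 < Metric.diam Y ∧
    ¬ ∃ B : Fin 64 → Set (EuclideanSpace ℝ (Fin 63)),
      (∀ i, B i ⊆ Y) ∧ (⋃ i, B i) = Y ∧ ∀ i, Metric.diam (B i) < Metric.diam Y :=
  Vale.Agent.Lib.P052.Inst.main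

end Vale.Agent.Results.P052.Dim63
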